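import Vale.Agent.P196.Sft.Basic

/-!
# P196: the full group of the subshift times `m` points

Bijections of `S.Conf 0 × Fin m` moving every point by a locally constant displacement in the
plane. Translations are free, so the displacement is unique; it is a cocycle, depends on finitely
many cells and is bounded.
-/

namespace Vale.Agent.P196.Sft

namespace MacroSystem

variable (S : MacroSystem)

instance : AddAction Cell (S.Conf 0) where
  vadd v t := S.act 0 v t
  zero_vadd t := S.act_zero 0 t
  add_vadd v w t := (S.act_act 0 v w t).symm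

theorem vadd_def (v : Cell) (t : S.Conf 0) : v +ᵥ t = S.act 0 v t := rfl

instance : ContinuousConstVAdd Cell (S.Conf 0) := ⟨fun v => S.continuous_act 0 v⟩

theorem vadd_injective (t : S.Conf 0) : Function.Injective fun v : Cell => v +ᵥ t := by
  intro v w h
  have h0 : (-w + v) +ᵥ t = t := by
    rw [add_vadd]
    exact (congrArg (fun s : S.Conf 0 => -w +ᵥ s) h).trans (neg_vadd_vadd w t)
  exact (eq_neg_add_iff_add_eq.1 (S.act_free _ t h0).symm).symm.trans (add_zero w)

/-- Points of the space acted on. -/
abbrev Pt (m : ℕ) : Type := S.Conf 0 × Fin m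

/-- `d` is the displacement of `g`, and `g` is given by it and a locally constant relabelling. -/
structure IsDisp {m : ℕ} (g : S.Pt m → S.Pt m) (d : S.Pt m → Cell) : Prop where
  disp : IsLocallyConstant d
  label : IsLocallyConstant fun x => (g x).2
  fst : ∀ x, (g x).1 = d x +ᵥ x.1

/-- The full group: such bijections whose inverse is such a bijection. -/
def fullGroup (m : ℕ) : Subgroup (Equiv.Perm (S.Pt m)) where
  carrier := {g | (∃ d, S.IsDisp g d) ∧ ∃ d, S.IsDisp g.symm d}
  one_mem' := by
    have h : S.IsDisp (m := m) id fun _ => 0 :=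
      ⟨IsLocallyConstant.const _,
        (IsLocallyConstant.iff_continuous _).2 continuous_snd, fun x => (zero_vadd Cell x.1).symm⟩
    exact ⟨⟨_, h⟩, ⟨_, h⟩⟩
  inv_mem' := fun {g} hg => ⟨hg.2, hg.1⟩
  mul_mem' := by
    have key : ∀ {f g : S.Pt m → S.Pt m} {d e}, S.IsDisp f d → S.IsDisp g e →
        ∃ k, S.IsDisp (f ∘ g) k := by
      intro f g d e hf hg
      have hc : Continuous g := by
        have h1 : IsLocallyConstant e := hg.disp
        refine continuous_prodMk.2 ⟨?_, (IsLocallyConstant.iff_continuous _).1 hg.label⟩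
        refine continuous_iff_continuousAt.2 fun x => ?_
        have hev : (fun y => (g y).1) =ᶠ[nhds x] fun y => e x +ᵥ y.1 := by
          filter_upwards [(IsLocallyConstant.iff_eventually_eq _).1 h1 x] with y hy
          rw [hg.fst y, hy]
        exact ((continuous_const_vadd (e x)).comp continuous_fst).continuousAt.congr hev.symm
      refine ⟨fun x => d (g x) + e x, (hf.disp.comp_continuous hc).comp₂ hg.disp (· + ·),
        hf.label.comp_continuous hc, fun x => ?_⟩
      show (f (g x)).1 = _
      rw [hf.fst, hg.fst, add_vadd]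
    rintro f g ⟨⟨d, hd⟩, d', hd'⟩ ⟨⟨e, he⟩, e', he'⟩
    obtain ⟨k, hk⟩ := key hd he
    obtain ⟨k', hk'⟩ := key he' hd'
    exact ⟨⟨k, hk⟩, ⟨k', hk'⟩⟩

variable {S} {m : ℕ}

/-- The displacement of a member of the full group. -/
noncomputable def disp (g : S.fullGroup m) : S.Pt m → Cell := g.2.1.choose

theorem isDisp_disp (g : S.fullGroup m) : S.IsDisp (g.1 : S.Pt m → S.Pt m) (disp g) :=
  g.2.1.choose_spec

theorem fst_apply (g : S.fullGroup m) (x : S.Pt m) : (g.1 x).1 = disp g x +ᵥ x.1 :=
  (isDisp_disp g).fst x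

theorem disp_eq (g : S.fullGroup m) (x : S.Pt m) (v : Cell) (h : (g.1 x).1 = v +ᵥ x.1) :
    disp g x = v :=
  S.vadd_injective x.1 ((fst_apply g x).symm.trans h)

theorem disp_mul (g h : S.fullGroup m) (x : S.Pt m) :
    disp (g * h) x = disp g (h.1 x) + disp h x := by
  refine disp_eq _ _ _ ?_
  rw [Subgroup.coe_mul, Equiv.Perm.mul_apply, fst_apply, fst_apply, add_vadd]

theorem disp_one (x : S.Pt m) : disp (1 : S.fullGroup m) x = 0 :=
  disp_eq _ _ _ (by simp)

theorem disp_inv_apply (g : S.fullGroup m) (x : S.Pt m) : disp g⁻¹ (g.1 x) = -disp g x := by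
  have h := disp_mul g⁻¹ g x
  rw [inv_mul_cancel, disp_one] at h
  exact eq_neg_of_add_eq_zero_left h.symm

theorem continuous_apply_fullGroup (g : S.fullGroup m) : Continuous (g.1 : S.Pt m → S.Pt m) := by
  refine continuous_prodMk.2 ⟨continuous_iff_continuousAt.2 fun x => ?_,
    (IsLocallyConstant.iff_continuous _).1 (isDisp_disp g).label⟩
  have hev : (fun y => (g.1 y).1) =ᶠ[nhds x] fun y => disp g x +ᵥ y.1 := by
    filter_upwards [(IsLocallyConstant.iff_eventually_eq _).1 (isDisp_disp g).disp x] with y hy
    rw [fst_apply, hy]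
  exact ((continuous_const_vadd (disp g x)).comp continuous_fst).continuousAt.congr hev.symm

/-- A member of the full group reads finitely many cells and moves every point boundedly. -/
theorem exists_radius_fullGroup (g : S.fullGroup m) :
    ∃ r : ℕ, (∀ x, |(disp g x).1| ≤ (r : ℤ) ∧ |(disp g x).2| ≤ (r : ℤ)) ∧
      ∀ (t t' : S.Conf 0) (a : Fin m),
        (∀ v : Cell, |v.1| ≤ (r : ℤ) → |v.2| ≤ (r : ℤ) → t.1 v = t'.1 v) →
        disp g (t, a) = disp g (t', a) ∧ (g.1 (t, a)).2 = (g.1 (t', a)).2 := by
  classical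
  obtain ⟨r0, h0⟩ := S.exists_radius (fun t a => (disp g (t, a), (g.1 (t, a)).2)) <| by
    refine (IsLocallyConstant.iff_eventually_eq _).2 fun t => ?_
    have h : ∀ a : Fin m, ∀ᶠ s in nhds t,
        disp g (s, a) = disp g (t, a) ∧ (g.1 (s, a)).2 = (g.1 (t, a)).2 := fun a =>
      ((IsLocallyConstant.iff_eventually_eq _).1
        ((isDisp_disp g).disp.comp_continuous (Continuous.prodMk_left a)) t).and
        ((IsLocallyConstant.iff_eventually_eq _).1
          ((isDisp_disp g).label.comp_continuous (Continuous.prodMk_left a)) t)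
    filter_upwards [Filter.eventually_all.2 h] with s hs
    funext a
    exact Prod.ext (hs a).1 (hs a).2
  have hfin : (Set.range (disp g)).Finite := (isDisp_disp g).disp.range_finite
  let r1 := hfin.toFinset.sup fun v : Cell => max v.1.natAbs v.2.natAbs
  refine ⟨max r0 r1, fun x => ?_, fun t t' a h => ?_⟩
  · have := Finset.le_sup (f := fun v : Cell => max v.1.natAbs v.2.natAbs)
      (hfin.mem_toFinset.2 ⟨x, rfl⟩)
    simp only [max_le_iff] at this
    rw [abs_le, abs_le]
    omega
  · have e := congrFun (h0 t t' fun v h1 h2 => h v (h1.trans (by exact_mod_cast le_max_left r0 r1))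
      (h2.trans (by exact_mod_cast le_max_left r0 r1))) a
    exact Prod.ext_iff.1 e

end MacroSystem

end Vale.Agent.P196.Sft
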