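import Vale.Agent.P196.Sft.Defs

/-!
# P196: basic consequences of a macro-tile system

Translations, compactness, the unique parent of a legal tiling as continuous equivariant data,
the position of the origin in its level-`k` tile, and freeness.
-/

namespace Vale.Agent.P196.Sft

variable {α β : Type}

theorem shiftBy_zero (t : Cell → α) : shiftBy 0 t = t := by
  funext u; simp [shiftBy]

theorem shiftBy_shiftBy (v w : Cell) (t : Cell → α) :
    shiftBy v (shiftBy w t) = shiftBy (v + w) t := by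
  funext u; simp [shiftBy, add_assoc]

theorem shiftBy_injective (v : Cell) : Function.Injective (shiftBy v : (Cell → α) → Cell → α) :=
  fun t t' h => by simpa [shiftBy_shiftBy, shiftBy_zero] using congrArg (shiftBy (-v)) h

theorem Legal.shiftBy {W : Set (Win α)} {t : Cell → α} (h : Legal W t) (v : Cell) :
    Legal W (Sft.shiftBy v t) := fun u => by
  have e : windowAt (Sft.shiftBy v t) u = windowAt t (u.1 + v.1, u.2 + v.2) := by
    funext d
    simp only [windowAt, Sft.shiftBy]
    congr 1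
    ext <;> simp only <;> ring
  exact e ▸ h _

theorem windowAt_shiftBy (v : Cell) (t : Cell → α) (u : Cell) :
    windowAt (shiftBy v t) u = windowAt t (u.1 + v.1, u.2 + v.2) := by
  funext d
  simp only [windowAt, shiftBy]
  congr 1
  ext <;> simp only <;> ring

theorem shiftBy_expand (z : ℕ) (draw : Win β → ℕ → ℕ → α) (o v : Cell) (T : Cell → β) :
    shiftBy v (expand z draw o T) = expand z draw (o - v) T := by
  funext u
  simp only [shiftBy, expand, Prod.fst_sub, Prod.snd_sub]
  rw [show u.1 + v.1 - o.1 = u.1 - (o.1 - v.1) by ring,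
    show u.2 + v.2 - o.2 = u.2 - (o.2 - v.2) by ring]

theorem expand_shiftBy (z : ℕ) (hz : 0 < z) (draw : Win β → ℕ → ℕ → α) (o q : Cell)
    (T : Cell → β) :
    expand z draw o (shiftBy q T) = expand z draw (o.1 - q.1 * z, o.2 - q.2 * z) T := by
  have hz' : (z : ℤ) ≠ 0 := by omega
  funext u
  simp only [expand]
  rw [windowAt_shiftBy, show u.1 - (o.1 - q.1 * z) = (u.1 - o.1) + q.1 * z by ring,
    show u.2 - (o.2 - q.2 * z) = (u.2 - o.2) + q.2 * z by ring,
    Int.add_mul_ediv_right _ _ hz', Int.add_mul_ediv_right _ _ hz', Int.add_mul_emod_self_right,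
    Int.add_mul_emod_self_right]
  simp only [sub_add_eq_add_sub]

theorem emod_neg_inj {z a b : ℤ} (hz : 0 < z) (ha : 0 ≤ a ∧ a < z) (hb : 0 ≤ b ∧ b < z)
    (h : -a % z = -b % z) : a = b := by
  have h' : z ∣ (b - a) := by
    have := Int.emod_eq_emod_iff_emod_sub_eq_zero.1 h
    exact Int.dvd_of_emod_eq_zero (by simpa [neg_add_eq_sub, sub_eq_add_neg] using this)
  obtain ⟨k, hk⟩ := h'
  rcases lt_trichotomy k 0 with h | h | h
  · nlinarith
  · subst h; simp at hk; omega
  · nlinarith

namespace MacroSystem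

variable (S : MacroSystem)

theorem zoom_pos (n : ℕ) : 0 < S.Z n := by have := S.zoom_ge n; omega

theorem P_pos : ∀ k, 0 < S.P k
  | 0 => Nat.one_pos
  | k + 1 => Nat.mul_pos (S.zoom_pos k) (P_pos k)

theorem le_P : ∀ k, k ≤ S.P k
  | 0 => Nat.zero_le _
  | k + 1 => by
    have h1 := S.zoom_ge k
    have h2 := S.P_pos k
    have h3 := le_P k
    show k + 1 ≤ S.Z k * S.P k
    nlinarith

/-- Legal tilings of level `n`. -/
abbrev Conf (n : ℕ) : Type := {t : Cell → S.C n // Legal (S.W n) t}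

instance (n : ℕ) : Fintype (S.C n) := S.fin n

instance (n : ℕ) : TopologicalSpace (S.C n) := ⊥

instance (n : ℕ) : DiscreteTopology (S.C n) := ⟨rfl⟩

instance conf_compact (n : ℕ) : CompactSpace (S.Conf n) := by
  refine isCompact_iff_compactSpace.1 (IsClosed.isCompact ?_)
  have e : {t : Cell → S.C n | Legal (S.W n) t} =
      ⋂ v : Cell, (fun t : Cell → S.C n => windowAt t v) ⁻¹' S.W n := by
    ext t; simp [Legal]
  change IsClosed {t : Cell → S.C n | Legal (S.W n) t}
  rw [e]
  exact isClosed_iInter fun v => IsClosed.preimage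
    (continuous_pi fun d => continuous_apply _) (isClosed_discrete _)

/-- The translate of a legal tiling. -/
def act (n : ℕ) (v : Cell) (t : S.Conf n) : S.Conf n := ⟨shiftBy v t.1, t.2.shiftBy v⟩

theorem act_zero (n : ℕ) (t : S.Conf n) : S.act n 0 t = t := Subtype.ext (shiftBy_zero _)

theorem act_act (n : ℕ) (v w : Cell) (t : S.Conf n) :
    S.act n v (S.act n w t) = S.act n (v + w) t := Subtype.ext (shiftBy_shiftBy v w _)

theorem continuous_act (n : ℕ) (v : Cell) : Continuous (S.act n v) :=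
  (continuous_pi fun u => (continuous_apply (u.1 + v.1, u.2 + v.2)).comp
    continuous_subtype_val).subtype_mk _

/-- A residue in a parent. -/
abbrev Res (n : ℕ) : Type := Fin (S.Z n) × Fin (S.Z n)

/-- The residue as a cell. -/
def Res.cell {n : ℕ} (i : S.Res n) : Cell := ((i.1.val : ℤ), (i.2.val : ℤ))

/-- The residue of a cell. -/
def toRes (n : ℕ) (v : Cell) : S.Res n :=
  (⟨(v.1 % (S.Z n : ℤ)).toNat, by
      have h : (0 : ℤ) < S.Z n := by exact_mod_cast S.zoom_pos n
      have := Int.emod_lt_of_pos v.1 h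
      omega⟩,
   ⟨(v.2 % (S.Z n : ℤ)).toNat, by
      have h : (0 : ℤ) < S.Z n := by exact_mod_cast S.zoom_pos n
      have := Int.emod_lt_of_pos v.2 h
      omega⟩)

theorem cell_toRes (n : ℕ) (v : Cell) :
    Res.cell S (S.toRes n v) = (v.1 % (S.Z n : ℤ), v.2 % (S.Z n : ℤ)) := by
  have h : (S.Z n : ℤ) ≠ 0 := by have := S.zoom_pos n; omega
  simp [Res.cell, toRes, Int.toNat_of_nonneg (Int.emod_nonneg _ h)]

/-- Drawing, normalised: the origin sits at residue `i` of the parent with index `0`. -/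
def build (n : ℕ) (p : S.Res n × S.Conf (n + 1)) : S.Conf n :=
  ⟨expand (S.Z n) (S.draw n) (-Res.cell S p.1) p.2.1, S.expand_legal n _ _ p.2.2⟩

theorem build_bijective (n : ℕ) : Function.Bijective (S.build n) := by
  have hz := S.zoom_pos n
  have hz' : (0 : ℤ) < S.Z n := by exact_mod_cast hz
  -- an arbitrary offset, moved into `[0, z) × [0, z)`
  have norm : ∀ (o : Cell) (T : Cell → S.C (n + 1)),
      expand (S.Z n) (S.draw n) o T = expand (S.Z n) (S.draw n) (Res.cell S (S.toRes n o))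
        (shiftBy (-(o.1 / (S.Z n : ℤ)), -(o.2 / (S.Z n : ℤ))) T) := by
    intro o T
    rw [expand_shiftBy _ hz, cell_toRes]
    congr 1
    exact Prod.ext (by simp only; linarith [Int.emod_add_mul_ediv o.1 (S.Z n : ℤ)])
      (by simp only; linarith [Int.emod_add_mul_ediv o.2 (S.Z n : ℤ)])
  constructor
  · rintro ⟨i, T⟩ ⟨i', T'⟩ h
    have h' : expand (S.Z n) (S.draw n) (-Res.cell S i) T.1 =
        expand (S.Z n) (S.draw n) (-Res.cell S i') T'.1 := congrArg Subtype.val h
    obtain ⟨p, -, hp⟩ := S.desub n _ (S.build n (i, T)).2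
    have e1 := hp (S.toRes n (-Res.cell S i), _) ⟨T.2.shiftBy _, norm _ T.1⟩
    have e2 := hp (S.toRes n (-Res.cell S i'), _) ⟨T'.2.shiftBy _, h'.trans (norm _ T'.1)⟩
    have e := e1.trans e2.symm
    simp only [Prod.mk.injEq] at e
    obtain ⟨ei, eT⟩ := e
    have hi : Res.cell S i = Res.cell S i' := by
      have hc := congrArg (Res.cell S) ei
      rw [cell_toRes, cell_toRes] at hc
      simp only [Prod.mk.injEq, Prod.fst_neg, Prod.snd_neg] at hc
      simp only [Res.cell, Prod.mk.injEq] at hc ⊢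
      constructor
      · exact emod_neg_inj hz' (by omega) (by omega) hc.1
      · exact emod_neg_inj hz' (by omega) (by omega) hc.2
    have hii : i = i' := by
      simp only [Res.cell, Prod.mk.injEq, Nat.cast_inj] at hi
      exact Prod.ext (Fin.ext hi.1) (Fin.ext hi.2)
    subst hii
    refine Prod.ext rfl (Subtype.ext ?_)
    exact shiftBy_injective (-((-Res.cell S i).1 / (S.Z n : ℤ)),
      -((-Res.cell S i).2 / (S.Z n : ℤ))) eT
  · intro t
    obtain ⟨⟨o, T⟩, ⟨hT, ht⟩, -⟩ := S.desub n t.1 t.2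
    let i := S.toRes n (-Res.cell S o)
    let q : Cell := ((-Res.cell S o).1 / (S.Z n : ℤ), (-Res.cell S o).2 / (S.Z n : ℤ))
    refine ⟨(i, ⟨shiftBy q T, hT.shiftBy _⟩), Subtype.ext ?_⟩
    show expand (S.Z n) (S.draw n) (-Res.cell S i) (shiftBy q T) = t.1
    rw [expand_shiftBy _ hz, cell_toRes]
    rw [show t.1 = _ from ht]
    congr 1
    refine Prod.ext ?_ ?_ <;> simp only [q, Res.cell, Prod.fst_neg, Prod.snd_neg]
    · linarith [Int.emod_add_mul_ediv (-(o.1.val : ℤ)) (S.Z n : ℤ)]
    · linarith [Int.emod_add_mul_ediv (-(o.2.val : ℤ)) (S.Z n : ℤ)]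

/-- Drawing as a homeomorphism: every legal tiling has exactly one parent. -/
noncomputable def buildEquiv (n : ℕ) : S.Res n × S.Conf (n + 1) ≃ S.Conf n :=
  Equiv.ofBijective _ (S.build_bijective n)

theorem continuous_build (n : ℕ) : Continuous (S.build n) := by
  refine (continuous_pi fun v => ?_).subtype_mk _
  have h : ∀ i : S.Res n, Continuous fun T : S.Conf (n + 1) =>
      expand (S.Z n) (S.draw n) (-Res.cell S i) T.1 v := by
    intro i
    simp only [expand]
    refine (continuous_of_discreteTopology (f := fun w : Win (S.C (n + 1)) =>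
      S.draw n w _ _)).comp ?_
    exact continuous_pi fun d => (continuous_apply _).comp continuous_subtype_val
  exact continuous_prod_of_discrete_left.2 h

theorem continuous_buildEquiv_symm (n : ℕ) : Continuous (S.buildEquiv n).symm :=
  (S.continuous_build n).continuous_symm_of_equiv_compact_to_t2 (f := S.buildEquiv n)

/-- The residue of the cell `0` in its parent. -/
noncomputable def res (n : ℕ) (t : S.Conf n) : S.Res n := ((S.buildEquiv n).symm t).1

/-- The parent tiling, the parent of the cell `0` at index `0`. -/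
noncomputable def par (n : ℕ) (t : S.Conf n) : S.Conf (n + 1) := ((S.buildEquiv n).symm t).2

theorem build_res_par (n : ℕ) (t : S.Conf n) : S.build n (S.res n t, S.par n t) = t :=
  (S.buildEquiv n).apply_symm_apply t

theorem isLocallyConstant_res (n : ℕ) : IsLocallyConstant (S.res n) :=
  (IsLocallyConstant.iff_continuous _).2 (continuous_fst.comp (S.continuous_buildEquiv_symm n))

theorem continuous_par (n : ℕ) : Continuous (S.par n) :=
  continuous_snd.comp (S.continuous_buildEquiv_symm n)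

theorem act_build (n : ℕ) (v : Cell) (i : S.Res n) (T : S.Conf (n + 1)) :
    S.act n v (S.build n (i, T)) = S.build n (S.toRes n (Res.cell S i + v),
      S.act (n + 1) (((Res.cell S i).1 + v.1) / (S.Z n : ℤ),
        ((Res.cell S i).2 + v.2) / (S.Z n : ℤ)) T) := by
  apply Subtype.ext
  show shiftBy v (expand _ _ _ T.1) = expand _ _ _ (shiftBy _ T.1)
  rw [shiftBy_expand, expand_shiftBy _ (S.zoom_pos n), cell_toRes]
  congr 1
  refine Prod.ext ?_ ?_ <;> simp only [Prod.fst_sub, Prod.snd_sub, Prod.fst_neg, Prod.snd_neg,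
    Prod.fst_add, Prod.snd_add]
  · linarith [Int.emod_add_mul_ediv ((Res.cell S i).1 + v.1) (S.Z n : ℤ)]
  · linarith [Int.emod_add_mul_ediv ((Res.cell S i).2 + v.2) (S.Z n : ℤ)]

theorem symm_act (n : ℕ) (v : Cell) (t : S.Conf n) :
    (S.buildEquiv n).symm (S.act n v t) = (S.toRes n (Res.cell S (S.res n t) + v),
      S.act (n + 1) (((Res.cell S (S.res n t)).1 + v.1) / (S.Z n : ℤ),
        ((Res.cell S (S.res n t)).2 + v.2) / (S.Z n : ℤ)) (S.par n t)) := by
  rw [Equiv.symm_apply_eq]
  show _ = S.build n _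
  rw [← act_build, build_res_par]

theorem res_act (n : ℕ) (v : Cell) (t : S.Conf n) :
    S.res n (S.act n v t) = S.toRes n (Res.cell S (S.res n t) + v) :=
  congrArg Prod.fst (S.symm_act n v t)

theorem par_act (n : ℕ) (v : Cell) (t : S.Conf n) :
    S.par n (S.act n v t) = S.act (n + 1) (((Res.cell S (S.res n t)).1 + v.1) / (S.Z n : ℤ),
      ((Res.cell S (S.res n t)).2 + v.2) / (S.Z n : ℤ)) (S.par n t) :=
  congrArg Prod.snd (S.symm_act n v t)

/-- The window of parents from which the parent of the cell `0` is drawn. -/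
noncomputable def win (n : ℕ) (t : S.Conf n) : Win (S.C (n + 1)) :=
  windowAt (S.par n t).1 (-1, -1)

theorem win_mem (n : ℕ) (t : S.Conf n) : S.win n t ∈ S.W (n + 1) := (S.par n t).2 _

theorem isLocallyConstant_win (n : ℕ) : IsLocallyConstant (S.win n) :=
  (IsLocallyConstant.iff_continuous _).2 <| (continuous_pi fun _ =>
    continuous_apply _ : Continuous fun T : Cell → S.C (n + 1) => windowAt T (-1, -1)).comp
      (continuous_subtype_val.comp (S.continuous_par n))

theorem apply_zero (n : ℕ) (t : S.Conf n) :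
    t.1 0 = S.draw n (S.win n t) (S.res n t).1.val (S.res n t).2.val := by
  conv_lhs => rw [← S.build_res_par n t]
  have e1 : ((S.res n t).1.val : ℤ) / (S.Z n : ℤ) = 0 :=
    Int.ediv_eq_zero_of_lt (by omega) (by exact_mod_cast (S.res n t).1.isLt)
  have e2 : ((S.res n t).2.val : ℤ) / (S.Z n : ℤ) = 0 :=
    Int.ediv_eq_zero_of_lt (by omega) (by exact_mod_cast (S.res n t).2.isLt)
  have f1 : ((S.res n t).1.val : ℤ) % (S.Z n : ℤ) = (S.res n t).1.val :=
    Int.emod_eq_of_lt (by omega) (by exact_mod_cast (S.res n t).1.isLt)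
  have f2 : ((S.res n t).2.val : ℤ) % (S.Z n : ℤ) = (S.res n t).2.val :=
    Int.emod_eq_of_lt (by omega) (by exact_mod_cast (S.res n t).2.isLt)
  simp [build, expand, win, Res.cell, e1, e2, f1, f2]

theorem apply_eq (n : ℕ) (t : S.Conf n) (c : Cell) :
    t.1 c = S.draw n (S.win n (S.act n c t)) (S.res n (S.act n c t)).1.val
      (S.res n (S.act n c t)).2.val := by
  rw [← S.apply_zero n (S.act n c t)]
  simp [act, shiftBy]

/-- Coordinate `1` of a translate inside the parent. -/
theorem res_fst_act (n : ℕ) (v : Cell) (t : S.Conf n) :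
    ((S.res n (S.act n v t)).1.val : ℤ) = ((S.res n t).1.val + v.1) % (S.Z n : ℤ) := by
  have h := congrArg Prod.fst (S.cell_toRes n (Res.cell S (S.res n t) + v))
  rw [res_act]; exact h

/-- Coordinate `2` of a translate inside the parent. -/
theorem res_snd_act (n : ℕ) (v : Cell) (t : S.Conf n) :
    ((S.res n (S.act n v t)).2.val : ℤ) = ((S.res n t).2.val + v.2) % (S.Z n : ℤ) := by
  have h := congrArg Prod.snd (S.cell_toRes n (Res.cell S (S.res n t) + v))
  rw [res_act]; exact h

theorem par_act_of_mem (n : ℕ) (v : Cell) (t : S.Conf n)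
    (h1 : 0 ≤ (S.res n t).1.val + v.1) (h1' : (S.res n t).1.val + v.1 < (S.Z n : ℤ))
    (h2 : 0 ≤ (S.res n t).2.val + v.2) (h2' : (S.res n t).2.val + v.2 < (S.Z n : ℤ)) :
    S.par n (S.act n v t) = S.par n t := by
  rw [par_act]
  simp only [Res.cell]
  rw [Int.ediv_eq_zero_of_lt h1 h1', Int.ediv_eq_zero_of_lt h2 h2']
  exact S.act_zero _ _

/-- Position of the cell `0` in its level-`k` tile, and the level-`k` tiling with this tile at
index `0`. -/
noncomputable def loc : ∀ k, S.Conf 0 → Cell × S.Conf k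
  | 0, t => (0, t)
  | k + 1, t =>
    (((S.res k (loc k t).2).1.val * (S.P k : ℤ) + (loc k t).1.1,
      (S.res k (loc k t).2).2.val * (S.P k : ℤ) + (loc k t).1.2), S.par k (loc k t).2)

/-- Position of the cell `0` in its level-`k` tile. -/
noncomputable def pos (k : ℕ) (t : S.Conf 0) : Cell := (S.loc k t).1

/-- The level-`k` tiling. -/
noncomputable def tile (k : ℕ) (t : S.Conf 0) : S.Conf k := (S.loc k t).2

theorem pos_mem (k : ℕ) (t : S.Conf 0) :
    (0 ≤ (S.pos k t).1 ∧ (S.pos k t).1 < S.P k) ∧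
      (0 ≤ (S.pos k t).2 ∧ (S.pos k t).2 < S.P k) := by
  induction k with
  | zero => simp [pos, loc, P]
  | succ k ih =>
    have a := (S.res k (S.tile k t)).1.isLt
    have b := (S.res k (S.tile k t)).2.isLt
    obtain ⟨⟨i1, i2⟩, j1, j2⟩ := ih
    simp only [pos, loc, P, tile, Nat.cast_mul] at *
    have a' : ((S.res k (S.loc k t).2).1.val : ℤ) + 1 ≤ S.Z k := by exact_mod_cast a
    have b' : ((S.res k (S.loc k t).2).2.val : ℤ) + 1 ≤ S.Z k := by exact_mod_cast b
    refine ⟨⟨by positivity, ?_⟩, by positivity, ?_⟩ <;> nlinarith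

private theorem mix (z P i p v : ℤ) (hP : 0 < P) :
    ((i + (p + v) / P) % z * P + (p + v) % P = (i * P + p + v) % (z * P)) ∧
      ((i + (p + v) / P) / z = (i * P + p + v) / (z * P)) := by
  have e : i * P + p + v = (p + v) % P + (i + (p + v) / P) * P := by
    linarith [Int.emod_add_mul_ediv (p + v) P]
  have hd : (i * P + p + v) / P = i + (p + v) / P := by
    rw [e, Int.add_mul_ediv_right _ _ hP.ne', Int.ediv_eq_zero_of_lt
      (Int.emod_nonneg _ hP.ne') (Int.emod_lt_of_pos _ hP), zero_add]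
  have hdiv : (i * P + p + v) / (z * P) = (i + (p + v) / P) / z := by
    rw [mul_comm z P, ← Int.ediv_ediv_of_nonneg hP.le, hd]
  refine ⟨?_, hdiv.symm⟩
  rw [Int.emod_def, Int.emod_def (i * P + p + v), hdiv]
  linarith

theorem loc_act (k : ℕ) (v : Cell) (t : S.Conf 0) :
    S.pos k (S.act 0 v t) = (((S.pos k t).1 + v.1) % (S.P k : ℤ),
        ((S.pos k t).2 + v.2) % (S.P k : ℤ)) ∧
      S.tile k (S.act 0 v t) = S.act k (((S.pos k t).1 + v.1) / (S.P k : ℤ),
        ((S.pos k t).2 + v.2) / (S.P k : ℤ)) (S.tile k t) := by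
  induction k with
  | zero => simp [pos, tile, loc, P]; rfl
  | succ k ih =>
    obtain ⟨hp, ht⟩ := ih
    have hP : (0 : ℤ) < S.P k := by exact_mod_cast S.P_pos k
    simp only [pos, tile] at hp ht
    simp only [pos, tile, loc, P, hp, ht, Nat.cast_mul]
    constructor
    · refine Prod.ext ?_ ?_
      · simp only [res_fst_act]
        exact (mix _ _ _ _ _ hP).1
      · simp only [res_snd_act]
        exact (mix _ _ _ _ _ hP).1
    · rw [par_act]
      simp only [Res.cell]
      rw [(mix _ _ _ _ _ hP).2, (mix _ _ _ _ _ hP).2]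

theorem pos_act (k : ℕ) (v : Cell) (t : S.Conf 0) :
    S.pos k (S.act 0 v t) = (((S.pos k t).1 + v.1) % (S.P k : ℤ),
        ((S.pos k t).2 + v.2) % (S.P k : ℤ)) := (S.loc_act k v t).1

theorem tile_act (k : ℕ) (v : Cell) (t : S.Conf 0) :
    S.tile k (S.act 0 v t) = S.act k (((S.pos k t).1 + v.1) / (S.P k : ℤ),
        ((S.pos k t).2 + v.2) / (S.P k : ℤ)) (S.tile k t) := (S.loc_act k v t).2

/-- Translations act freely. -/
theorem act_free (v : Cell) (t : S.Conf 0) (h : S.act 0 v t = t) : v = 0 := by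
  have hv : ∀ a : ℤ, (∀ k, ∃ p, 0 ≤ p ∧ p < (S.P k : ℤ) ∧ (p + a) % (S.P k : ℤ) = p) → a = 0 := by
    intro a ha
    obtain ⟨p, hp, hp', e⟩ := ha (a.natAbs + 1)
    have hk := S.le_P (a.natAbs + 1)
    have := Int.emod_add_mul_ediv (p + a) (S.P (a.natAbs + 1) : ℤ)
    rw [e] at this
    have hq : (p + a) / (S.P (a.natAbs + 1) : ℤ) = 0 := by
      by_contra hne
      rcases lt_or_gt_of_ne hne with hl | hl <;> nlinarith [le_abs_self a, neg_abs_le a,
        Int.natCast_natAbs a]
    rw [hq] at this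
    linarith
  have hk : ∀ k, S.pos k t = (((S.pos k t).1 + v.1) % (S.P k : ℤ),
      ((S.pos k t).2 + v.2) % (S.P k : ℤ)) := fun k => by rw [← pos_act, h]
  refine Prod.ext (hv _ fun k => ?_) (hv _ fun k => ?_)
  · exact ⟨_, (S.pos_mem k t).1.1, (S.pos_mem k t).1.2, (congrArg Prod.fst (hk k)).symm⟩
  · exact ⟨_, (S.pos_mem k t).2.1, (S.pos_mem k t).2.2, (congrArg Prod.snd (hk k)).symm⟩

theorem isLocallyConstant_pos (k : ℕ) :
    IsLocallyConstant (S.pos k) ∧ Continuous (S.tile k) := by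
  induction k with
  | zero => exact ⟨IsLocallyConstant.const _, continuous_id⟩
  | succ k ih =>
    have h := ((S.isLocallyConstant_res k).comp_continuous ih.2)
    exact ⟨h.comp₂ ih.1 fun i p => (((i.1.val : ℤ) * S.P k + p.1, (i.2.val : ℤ) * S.P k + p.2)),
      (S.continuous_par k).comp ih.2⟩

private theorem ediv_mem_near {z i a : ℤ} (hi : 0 ≤ i) (hi' : i < z) (ha : -2 ≤ a) (ha' : a ≤ 0)
    (hz : 8 ≤ z) : -1 ≤ (i + a) / z ∧ (i + a) / z ≤ 0 :=
  ⟨(Int.le_ediv_iff_mul_le (by omega)).2 (by omega),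
    Int.lt_add_one_iff.1 ((Int.ediv_lt_iff_lt_mul (by omega)).2 (by omega))⟩

/-- The colour of the cell `0` only depends on the position in the level-`k` tile and on the
level-`k` colours in `[-2, 0] ^ 2`. -/
theorem apply_zero_congr (k : ℕ) (t t' : S.Conf 0) (hp : S.pos k t = S.pos k t')
    (ht : ∀ c : Cell, -2 ≤ c.1 → c.1 ≤ 0 → -2 ≤ c.2 → c.2 ≤ 0 →
      (S.tile k t).1 c = (S.tile k t').1 c) : t.1 0 = t'.1 0 := by
  induction k with
  | zero => simpa [tile, loc] using ht 0 (by simp) le_rfl (by simp) le_rfl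
  | succ k ih =>
    have hP : (0 : ℤ) < S.P k := by exact_mod_cast S.P_pos k
    obtain ⟨⟨a1, a2⟩, a3, a4⟩ := S.pos_mem k t
    obtain ⟨⟨b1, b2⟩, b3, b4⟩ := S.pos_mem k t'
    simp only [pos, loc, Prod.mk.injEq] at hp
    simp only [pos] at a1 a2 a3 a4 b1 b2 b3 b4
    have sep : ∀ i j p q : ℤ, 0 ≤ p → p < S.P k → 0 ≤ q → q < S.P k →
        i * S.P k + p = j * S.P k + q → i = j ∧ p = q := by
      intro i j p q hp hp' hq hq' e
      have hij : i = j := by
        rcases lt_trichotomy i j with h | h | h <;> nlinarith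
      subst hij; exact ⟨rfl, by linarith⟩
    obtain ⟨hi, hp1⟩ := sep _ _ _ _ a1 a2 b1 b2 hp.1
    obtain ⟨hj, hp2⟩ := sep _ _ _ _ a3 a4 b3 b4 hp.2
    have hres : S.res k (S.tile k t) = S.res k (S.tile k t') := by
      simp only [Nat.cast_inj] at hi hj
      exact Prod.ext (Fin.ext hi) (Fin.ext hj)
    refine ih (Prod.ext hp1 hp2) fun c c1 c2 c3 c4 => ?_
    rw [S.apply_eq k _ c, S.apply_eq k _ c, res_act, res_act, hres]
    congr 1
    simp only [win, par_act, hres]
    funext d
    simp only [windowAt, act, shiftBy]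
    have hz : (8 : ℤ) ≤ S.Z k := by exact_mod_cast S.zoom_ge k
    obtain ⟨u1, u2⟩ := ediv_mem_near (Int.natCast_nonneg (S.res k (S.tile k t')).1.val)
      (by exact_mod_cast (S.res k (S.tile k t')).1.isLt) c1 c2 hz
    obtain ⟨u3, u4⟩ := ediv_mem_near (Int.natCast_nonneg (S.res k (S.tile k t')).2.val)
      (by exact_mod_cast (S.res k (S.tile k t')).2.isLt) c3 c4 hz
    have d1 := d.1.isLt
    have d2 := d.2.isLt
    exact ht _ (by simp [Res.cell]; omega) (by simp [Res.cell]; omega)
      (by simp [Res.cell]; omega) (by simp [Res.cell]; omega)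

/-- A cell at distance at most `P k` from `0` only depends on the position in the level-`k` tile
and on the level-`k` colours in `[-3, 1] ^ 2`. -/
theorem apply_congr (k : ℕ) (t t' : S.Conf 0) (hp : S.pos k t = S.pos k t')
    (ht : ∀ c : Cell, -3 ≤ c.1 → c.1 ≤ 1 → -3 ≤ c.2 → c.2 ≤ 1 →
      (S.tile k t).1 c = (S.tile k t').1 c)
    (v : Cell) (h1 : |v.1| ≤ (S.P k : ℤ)) (h2 : |v.2| ≤ (S.P k : ℤ)) : t.1 v = t'.1 v := by
  have e : ∀ s : S.Conf 0, s.1 v = (S.act 0 v s).1 0 := fun s => by simp [act, shiftBy]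
  rw [e, e]
  refine S.apply_zero_congr k _ _ (by rw [pos_act, pos_act, hp]) fun c c1 c2 c3 c4 => ?_
  rw [tile_act, tile_act, hp]
  simp only [act, shiftBy]
  have hP : (0 : ℤ) < S.P k := by exact_mod_cast S.P_pos k
  obtain ⟨⟨b1, b2⟩, b3, b4⟩ := S.pos_mem k t'
  rw [abs_le] at h1 h2
  have q : ∀ p a : ℤ, 0 ≤ p → p < S.P k → -(S.P k : ℤ) ≤ a → a ≤ S.P k →
      -1 ≤ (p + a) / (S.P k : ℤ) ∧ (p + a) / (S.P k : ℤ) ≤ 1 := fun p a _ _ _ _ =>
    ⟨(Int.le_ediv_iff_mul_le hP).2 (by linarith),
      Int.lt_add_one_iff.1 ((Int.ediv_lt_iff_lt_mul hP).2 (by linarith))⟩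
  obtain ⟨u1, u2⟩ := q _ _ b1 b2 h1.1 h1.2
  obtain ⟨u3, u4⟩ := q _ _ b3 b4 h2.1 h2.2
  exact ht _ (by simp; omega) (by simp; omega) (by simp; omega) (by simp; omega)

/-- A locally constant function on tilings depends on finitely many cells. -/
theorem exists_radius {α : Type*} (f : S.Conf 0 → α) (hf : IsLocallyConstant f) :
    ∃ r : ℕ, ∀ t t' : S.Conf 0, (∀ v : Cell, |v.1| ≤ (r : ℤ) → |v.2| ≤ (r : ℤ) →
      t.1 v = t'.1 v) → f t = f t' := by
  classical
  let A : ℕ → Set (S.Conf 0 × S.Conf 0) := fun r =>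
    {q | (∀ v : Cell, |v.1| ≤ (r : ℤ) → |v.2| ≤ (r : ℤ) → q.1.1 v = q.2.1 v)}
  let B : Set (S.Conf 0 × S.Conf 0) := {q | f q.1 ≠ f q.2}
  by_contra hne
  simp only [not_exists, not_forall] at hne
  have hA : ∀ r, IsClosed (A r) := fun r => by
    simp only [A, Set.ofPred_forall]
    exact isClosed_iInter fun v => isClosed_iInter fun _ => isClosed_iInter fun _ =>
      isClosed_eq ((continuous_apply v).comp (continuous_subtype_val.comp continuous_fst))
        ((continuous_apply v).comp (continuous_subtype_val.comp continuous_snd))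
  have hB : IsClosed B := by
    refine isOpen_compl_iff.1 (isOpen_iff_forall_mem_open.2 fun q hq => ?_)
    refine ⟨(f ⁻¹' {f q.1}) ×ˢ (f ⁻¹' {f q.2}), ?_, (hf _).prod (hf _), ⟨rfl, rfl⟩⟩
    rintro q' ⟨h1, h2⟩
    simp only [Set.mem_compl_iff, B, Set.mem_ofPred_eq, not_not] at hq ⊢
    rw [Set.mem_preimage, Set.mem_singleton_iff] at h1 h2
    rw [h1, h2, hq]
  have := IsCompact.nonempty_iInter_of_sequence_nonempty_isCompact_isClosed (fun r => A r ∩ B)
    (fun r q hq => ⟨fun v h1 h2 => hq.1 v (by push_cast; omega) (by push_cast; omega), hq.2⟩)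
    (fun r => by
      obtain ⟨t, t', h, h'⟩ := hne r
      exact ⟨(t, t'), h, h'⟩)
    (((hA 0).inter hB).isCompact) (fun r => (hA r).inter hB)
  obtain ⟨q, hq⟩ := this
  simp only [Set.mem_iInter] at hq
  refine (hq 0).2 (congrArg f (Subtype.ext (funext fun v => ?_)))
  exact (hq (v.1.natAbs + v.2.natAbs)).1 v (by rw [abs_le]; omega) (by rw [abs_le]; omega)

end MacroSystem

end Vale.Agent.P196.Sft
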