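import Mathlib

/-!
# P196: interface between the macro-tile system and the group halves

Levels `n` have colours `C n` and legal `2 × 2` windows `W n`; a parent's interior is drawn from
the `2 × 2` window of parents whose upper right cell it is. `MacroSystem` gives simulation and
minimality, `HasBands` is all the amenability half uses, `Span0` and `Span1` are the mod-2 inputs of
finite presentation. The rigidity input E6 is stated with the event algebras.
-/

namespace Vale.Agent.P196.Sft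

/-- A position in the plane. -/
abbrev Cell : Type := ℤ × ℤ

/-- A `2 × 2` window with the given alphabet. -/
abbrev Win (α : Type) : Type := Fin 2 × Fin 2 → α

/-- The window of `t` whose lower left corner is `v`. -/
def windowAt {α : Type} (t : Cell → α) (v : Cell) : Win α :=
  fun d => t (v.1 + d.1.val, v.2 + d.2.val)

/-- All `2 × 2` windows of `t` are in `W`. -/
def Legal {α : Type} (W : Set (Win α)) (t : Cell → α) : Prop :=
  ∀ v : Cell, windowAt t v ∈ W

/-- The translate of `t` by `v`. -/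
def shiftBy {α : Type} (v : Cell) (t : Cell → α) : Cell → α :=
  fun u => t (u.1 + v.1, u.2 + v.2)

/-- Replace every parent `P` of `T` by its `z × z` interior, drawn from the window of parents at
`P - (1, 1)`; the parent grid starts at `o`. -/
def expand {α β : Type} (z : ℕ) (draw : Win β → ℕ → ℕ → α) (o : Cell) (T : Cell → β) :
    Cell → α :=
  fun v => draw (windowAt T ((v.1 - o.1) / (z : ℤ) - 1, (v.2 - o.2) / (z : ℤ) - 1))
    ((v.1 - o.1) % (z : ℤ)).toNat ((v.2 - o.2) % (z : ℤ)).toNat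

/-- Colours and hierarchy (simulation and minimality). Freeness and continuity of the positions
follow from `desub`, finiteness of the colours and `zoom_ge`. -/
structure MacroSystem where
  /-- colours of level `n` -/
  C : ℕ → Type
  fin : ∀ n, Fintype (C n)
  /-- zoom from level `n` to level `n + 1` -/
  Z : ℕ → ℕ
  zoom_ge : ∀ n, 8 ≤ Z n
  /-- legal windows of level `n` -/
  W : ∀ n, Set (Win (C n))
  /-- the interior of a parent -/
  draw : ∀ n, Win (C (n + 1)) → ℕ → ℕ → C n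
  legal_nonempty : ∀ n, ∃ t, Legal (W n) t
  /-- drawing a legal tiling gives a legal tiling -/
  expand_legal : ∀ n o T, Legal (W (n + 1)) T → Legal (W n) (expand (Z n) (draw n) o T)
  /-- exactly one parent grid and one tiling by parents -/
  desub : ∀ n t, Legal (W n) t → ∃! p : (Fin (Z n) × Fin (Z n)) × (Cell → C (n + 1)),
    Legal (W (n + 1)) p.2 ∧ t = expand (Z n) (draw n) ((p.1.1.val : ℤ), (p.1.2.val : ℤ)) p.2
  /-- every `3 × 3` block of a legal tiling occurs in every legal tiling; nothing is asked of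
  windows that satisfy the rules but occur in no tiling -/
  mixes : ∀ n (T t : Cell → C n), Legal (W n) T → Legal (W n) t → ∃ u : Cell, ∀ c : Cell,
    -2 ≤ c.1 → c.1 ≤ 0 → -2 ≤ c.2 → c.2 ≤ 0 → t (u + c) = T c

namespace MacroSystem

variable (S : MacroSystem)

/-- Side of a level-`n` tile in base cells. -/
def P : ℕ → ℕ
  | 0 => 1
  | n + 1 => S.Z n * P n

/-- The subshift of finite type of legal tilings at level `0`. -/
def X : Set (Cell → S.C 0) := {t | Legal (S.W 0) t}

/-- The two bands of the parents of level `n + 1`. In the columns `[lo, hi)` the vertical address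
is hidden: a child depends on its column, and near an exceptional row on one label and on its
offset from that row. In the rows `[plo, phi)` the same holds with rows and columns exchanged,
outside the band of columns. -/
structure Band (n c V : ℕ) where
  lo : ℕ
  hi : ℕ
  plo : ℕ
  phi : ℕ
  lo_lt : lo < hi
  hi_le : hi ≤ S.Z n
  plo_lt : plo < phi
  phi_le : phi ≤ S.Z n
  wide : S.Z n ≤ c * (hi - lo)
  pwide : S.Z n ≤ c * (phi - plo)
  /-- exceptional rows of a parent; row `0` is one of them -/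
  exRow : Win (S.C (n + 1)) → Finset ℕ
  exRow_zero : ∀ w ∈ S.W (n + 1), 0 ∈ exRow w
  exRow_lt : ∀ w ∈ S.W (n + 1), ∀ j ∈ exRow w, j < S.Z n
  exRow_sep : ∀ w ∈ S.W (n + 1), ∀ j ∈ exRow w, ∀ j' ∈ exRow w,
    j < j' → S.Z n ≤ c * (j' - j) ∧ S.Z n ≤ c * (S.Z n - j')
  exRow_avoid : ∀ w ∈ S.W (n + 1), ∀ j ∈ exRow w, j + 3 ≤ plo ∨ phi + 2 ≤ j
  blank : ℕ → S.C n
  rowLabel : Win (S.C (n + 1)) → ℕ → Fin V
  /-- row `0` has a constant label, as the rows just below it belong to another parent -/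
  rowLabel_zero : ∃ a : Fin V, ∀ w ∈ S.W (n + 1), rowLabel w 0 = a
  rowPat : ℕ → ℤ → Fin V → S.C n
  draw_blank : ∀ w ∈ S.W (n + 1), ∀ i j, lo ≤ i → i < hi → j < S.Z n → j + 2 < S.Z n →
    (∀ j₀ ∈ exRow w, j + 2 < j₀ ∨ j₀ + 2 < j) → S.draw n w i j = blank i
  draw_row : ∀ w ∈ S.W (n + 1), ∀ i j, ∀ j₀ ∈ exRow w, lo ≤ i → i < hi → j < S.Z n →
    j₀ ≤ j + 2 → j ≤ j₀ + 2 → S.draw n w i j = rowPat i ((j : ℤ) - j₀) (rowLabel w j₀)
  draw_top : ∀ w ∈ S.W (n + 1), ∀ i j, lo ≤ i → i < hi → j < S.Z n → S.Z n ≤ j + 2 →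
    ∀ w' ∈ S.W (n + 1), S.draw n w i j = rowPat i ((j : ℤ) - S.Z n) (rowLabel w' 0)
  /-- exceptional columns of a parent in the rows `[plo, phi)`, outside the band -/
  exCol : Win (S.C (n + 1)) → Finset ℕ
  exCol_zero : ∀ w ∈ S.W (n + 1), 0 ∈ exCol w
  exCol_lt : ∀ w ∈ S.W (n + 1), ∀ i ∈ exCol w, i < S.Z n
  exCol_sep : ∀ w ∈ S.W (n + 1), ∀ i ∈ exCol w, ∀ i' ∈ exCol w,
    i < i' → S.Z n ≤ c * (i' - i) ∧ S.Z n ≤ c * (S.Z n - i')
  pblank : ℕ → S.C n
  colLabel : Win (S.C (n + 1)) → ℕ → Fin V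
  colLabel_zero : ∃ a : Fin V, ∀ w ∈ S.W (n + 1), colLabel w 0 = a
  colPat : ℕ → ℤ → Fin V → S.C n
  draw_pblank : ∀ w ∈ S.W (n + 1), ∀ i j, plo ≤ j → j < phi → i < S.Z n → i + 2 < S.Z n →
    (i < lo ∨ hi ≤ i) → (∀ i₀ ∈ exCol w, i + 2 < i₀ ∨ i₀ + 2 < i) → S.draw n w i j = pblank j
  draw_col : ∀ w ∈ S.W (n + 1), ∀ i j, ∀ i₀ ∈ exCol w, plo ≤ j → j < phi → i < S.Z n →
    (i < lo ∨ hi ≤ i) → i₀ ≤ i + 2 → i ≤ i₀ + 2 →
    S.draw n w i j = colPat j ((i : ℤ) - i₀) (colLabel w i₀)
  draw_right : ∀ w ∈ S.W (n + 1), ∀ i j, plo ≤ j → j < phi → i < S.Z n → S.Z n ≤ i + 2 →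
    ∀ w' ∈ S.W (n + 1), S.draw n w i j = colPat j ((i : ℤ) - S.Z n) (colLabel w' 0)

/-- Everything the amenability half uses: bands with uniform constants at every level, and zoom
tending to infinity. -/
structure HasBands where
  c : ℕ
  c_pos : 0 < c
  V : ℕ
  band : ∀ n, S.Band n c V
  zoom_tendsto : ∀ m : ℕ, ∃ N, ∀ n ≥ N, m ≤ S.Z n

/-- `f` depends only on the cells at distance at most `r` from the origin. -/
def Radius (r : ℕ) (f : (Cell → S.C 0) → ZMod 2) : Prop :=
  ∀ t t', (∀ p : Cell, |p.1| ≤ (r : ℤ) → |p.2| ≤ (r : ℤ) → t p = t' p) → f t = f t'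

/-- The mod-2 boundary in direction `d`. -/
def bd (d : Cell) (f : (Cell → S.C 0) → ZMod 2) (t : Cell → S.C 0) : ZMod 2 :=
  f t + f (shiftBy d t)

/-- E5: the mod-2 coinvariants are spanned in bounded radius. -/
def Span0 : Prop :=
  ∃ r, ∀ R u, S.Radius R u → ∃ v f g K, S.Radius r v ∧ S.Radius K f ∧ S.Radius K g ∧
    ∀ t ∈ S.X, u t = v t + S.bd (1, 0) f t + S.bd (0, 1) g t

/-- E5b: the mod-2 one-cycles are spanned in bounded radius. -/
def Span1 : Prop :=
  ∃ r, ∀ R f g, S.Radius R f → S.Radius R g →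
    (∀ t ∈ S.X, S.bd (1, 0) f t + S.bd (0, 1) g t = 0) →
    ∃ f' g' h K, S.Radius r f' ∧ S.Radius r g' ∧ S.Radius K h ∧ ∀ t ∈ S.X,
      f t = f' t + S.bd (0, 1) h t ∧ g t = g' t + S.bd (1, 0) h t

end MacroSystem

end Vale.Agent.P196.Sft
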